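import Vale.Agent.P344.Main

namespace Vale.Agent.Results.P344.Sublog

open Vale.Agent.P344 Filter

/-- `L n`: the least number of gates of a linear circuit with inputs `x_0, …, x_{n-1}` and the
constant `0` that computes all outputs `∑_k ζ_n^{jk} x_k`; values are functions of the input. -/
noncomputable def L (n : ℕ) : ℕ :=
  sInf {c | Der (V := (Fin n → ℂ) → ℂ) (insert 0 (Set.range fun (k : Fin n) (x : Fin n → ℂ) => x k)) c
    (Set.range fun (j : Fin n) (x : Fin n → ℂ) =>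
      ∑ k : Fin n, Complex.exp (2 * Real.pi * Complex.I / n) ^ (j.1 * k.1) * x k)}

theorem result :
    (∀ n : ℕ, Der (V := (Fin n → ℂ) → ℂ) (insert 0 (Set.range fun (k : Fin n) (x : Fin n → ℂ) => x k))
      (L n) (Set.range fun (j : Fin n) (x : Fin n → ℂ) =>
        ∑ k : Fin n, Complex.exp (2 * Real.pi * Complex.I / n) ^ (j.1 * k.1) * x k)) ∧
    (∃ C : ℝ, ∀ n : ℕ, 2 ≤ n → (L n : ℝ) ≤ C * n * Real.logb 2 n ^ (1 - 1 / 10 ^ 9 : ℝ)) ∧
    ¬ ∃ c : ℝ, 0 < c ∧ ∀ᶠ n : ℕ in atTop, c * n * Real.logb 2 n ≤ L n := by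
  have br : ∀ n c : ℕ, Cost (FM n) c → Der (V := (Fin n → ℂ) → ℂ)
      (insert 0 (Set.range fun (k : Fin n) (x : Fin n → ℂ) => x k)) c
      (Set.range fun (j : Fin n) (x : Fin n → ℂ) =>
        ∑ k : Fin n, Complex.exp (2 * Real.pi * Complex.I / n) ^ (j.1 * k.1) * x k) := by
    intro n c h
    convert h _ _ (fun (k : Fin n) (x : Fin n → ℂ) => x k) (Set.mem_insert _ _)
      (Set.subset_insert _ _) using 2
    funext j x; simp [mv, FM, ze]
  obtain ⟨C, hC⟩ := main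
  have h2 : ∀ n : ℕ, 2 ≤ n → (L n : ℝ) ≤ C * n * Real.logb 2 n ^ (1 - 1 / 10 ^ 9 : ℝ) := by
    intro n hn
    obtain ⟨c, h, h'⟩ := hC n hn
    exact le_trans (Nat.cast_le.2 (Nat.sInf_le (br n c h))) h'
  refine ⟨fun n => Nat.sInf_mem (Set.nonempty_of_mem (show _ ∈ {c | Der _ c _} from br n _ (Cost.triv _))), ⟨C, h2⟩, ?_⟩
  rintro ⟨c, c0, h⟩
  have t : Tendsto (fun n : ℕ => Real.logb 2 n ^ (1 / 10 ^ 9 : ℝ)) atTop atTop :=
    (tendsto_rpow_atTop (by norm_num)).comp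
      ((Real.tendsto_logb_atTop one_lt_two).comp tendsto_natCast_atTop_atTop)
  obtain ⟨n, h1, h3, h4⟩ := (h.and ((t.eventually_gt_atTop (C / c)).and (eventually_ge_atTop 2))).exists
  have n2 : (2 : ℝ) ≤ n := by exact_mod_cast h4
  have l0 : 0 < Real.logb 2 n := Real.logb_pos one_lt_two (by linarith)
  have := h1.trans (h2 n h4)
  rw [Real.rpow_sub l0, Real.rpow_one, ← mul_div_assoc, le_div_iff₀ (by positivity)] at this
  rw [div_lt_iff₀ c0] at h3
  have p : 0 < n * Real.logb 2 n := by positivity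
  nlinarith

end Vale.Agent.Results.P344.Sublog
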